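import Vale.Agent.P092RG.Quo
import Vale.Agent.P092RG.Haar
import Vale.Agent.P092CP.Defs
import Vale.Agent.P092RD.Pom
import Vale.Agent.P092EN.Defs

/-!
P092, rank one skeleton (helper26): the statements of the blocks (notes 586, 587).
-/

set_option linter.all false

open scoped InnerProductSpace ENNReal NNReal
open Filter Topology MeasureTheory ContinuousLinearMap

namespace Vale.Agent.P092RS

open Vale.Agent.P092.H793.Re Vale.Agent.P092RG Vale.Agent.P092CP Vale.Agent.P092RD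
open Vale.Agent.P092.RC (Cm)
open Vale.Agent.P092EN (Cov UQ)

variable {n n' : ℕ} {G G' K : Type} [Group G] [TopologicalSpace G] [MeasurableSpace G] [Group G']
  [TopologicalSpace G'] [MeasurableSpace G'] [NormedAddCommGroup K] [InnerProductSpace ℂ K]
  [CompleteSpace K] {ρ : G →* SLn n} {w : Fin n → ℝ} {ρ' : G' →* SLn n'} {w' : Fin n' → ℝ}
  {μ : Measure G} {μ' : Measure G'} {W : Set (K →L[ℂ] K)}

/-- conjugation by a representation -/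
def ad (π : G →* (K →L[ℂ] K)) (g : G) (T : K →L[ℂ] K) : K →L[ℂ] K := π g * T * π g⁻¹

/-- the ball of radius `R` -/
def ball (h : R1 ρ w) (R : ℝ) : Set G := {x | h.rr x ≤ R}

/-- **A level decomposition** of `D`: `D = R 0`, `R j` is small in norm, the differences are
Hilbert-Schmidt and live in the ball of radius about `i` of the target. -/
structure Lev (h' : R1 ρ' w') (S : Side μ' W) (D : K →L[ℂ] K) (c : ℝ) (ε₀ : ℝ≥0∞)
    (ε : ℕ → ℝ≥0∞) (R : ℕ → (K →L[ℂ] K)) : Prop where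
  zero : R 0 = D
  cm : ∀ j, Cm W (R j)
  op : ∀ j : ℕ, ‖R j‖ ≤ c * Real.exp (-(j : ℝ))
  hs : ∀ i : ℕ, S.Tr (R i - R (i + 1)) ≤ ε₀ * eo (((h'.Q : ℝ) - 2) * i)
  tail : ∀ i r : ℕ, S.Tr ((R i - R (i + 1)) * S.P {x | (i : ℝ) + r ≤ h'.rr x}) ≤
    ε r * eo (((h'.Q : ℝ) - 2) * i)

/-- a positive unital covariant map on the boundary of the target -/
structure PosU (h' : R1 ρ' w') (C : Cpl μ μ' W) (Φ : C(h'.Y, ℂ) →ₗ[ℂ] (K →L[ℂ] K)) : Prop where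
  one : Φ 1 = 1
  pos : ∀ f, 0 ≤ Φ (star f * f)
  norm : ∀ f, ‖Φ f‖ ≤ ‖f‖
  cm : ∀ f, Cm W (Φ f)
  cov : Cov C.t.π Φ

/-- **(FE)** a boundary map of finite energy, in the form of levels -/
def FE (h : R1 ρ w) (h' : R1 ρ' w') (C : Cpl μ μ' W) : Prop :=
  ∃ Φ : C(h'.Y, ℂ) →ₗ[ℂ] (K →L[ℂ] K), PosU h' C Φ ∧
    ∃ F : Set C(h'.Y, ℂ), Dense (Submodule.span ℂ F : Set C(h'.Y, ℂ)) ∧ ∀ f ∈ F,
      ∃ (c : ℝ) (ε₀ : G → ℝ≥0∞) (ε : G → ℕ → ℝ≥0∞), Measurable ε₀ ∧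
        (∀ r, Measurable fun v => ε v r) ∧ ∫⁻ v in ball h 1, ε₀ v ∂μ ≠ ∞ ∧
        Tendsto (fun r => ∫⁻ v in ball h 1, ε v r ∂μ) atTop (𝓝 0) ∧
        ∀ v ∈ ball h 1, ∃ R, Lev h' C.t (ad C.s.π v (Φ f) - Φ f) c (ε₀ v) (ε v) R

/-- **(W)** the window property: a fixed part of the source ball of radius `l` is coupled with the
target ball of radius `l + R` -/
def Wn (h : R1 ρ w) (h' : R1 ρ' w') (C : Cpl μ μ' W) : Prop :=
  ∃ R : ℝ, ∀ᶠ l : ℝ in atTop,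
    eo (h.Q * l - R) ≤ C.t.Tr (C.t.P (ball h' (l + R)) * C.s.P (ball h l))

/-- `∫_N σ_n (b* b) dn ≤ 1` -/
def NI (h : R1 ρ w) (S : Side μ W) (b : K →L[ℂ] K) : Prop :=
  ∀ ξ, ∫⁻ p : h.EN, ‖b (S.π (h.nE p) ξ)‖ₑ ^ 2 ≤ ‖ξ‖ₑ ^ 2

/-- **The cone calculus** -/
structure Th (h : R1 ρ w) (h' : R1 ρ' w') (C : Cpl μ μ' W) (θ : POM h'.Z K) : Prop where
  isP : θ.IsP
  cm : ∀ F, Bd F → Cm W (θ.f F)
  cov : ∀ x F, Bd F → ad C.t.π x (θ.f F) = θ.f fun z => F (x⁻¹ • z)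
  mn : ∀ g ∈ h.MN, ∀ F, Bd F → ad C.s.π g (θ.f F) = θ.f F
  aa : ∀ s F, Bd F → ad C.s.π (h.a s) (θ.f F) = θ.f fun z => F (h'.dl s z)
  fin : ∀ L, IsCompact L → ∃ c : ℝ≥0∞, c ≠ ∞ ∧
    ∀ b, Cm W b → NI h C.s b → C.t.Tr (θ.P L * adjoint b) ≤ c

/-- **(UQ)** uniqueness among the `A N`-invariant covariant maps -/
def Uq (h : R1 ρ w) (h' : R1 ρ' w') (C : Cpl μ μ' W) (Φ : C(h'.Y, ℂ) → (K →L[ℂ] K)) : Prop :=
  UQ (C.s.π.comp h.B.subtype) C.t.π W Φ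

/-- **(ERG)** ergodicity of `A N × P'` -/
def Erg (h : R1 ρ w) (h' : R1 ρ' w') (C : Cpl μ μ' W) : Prop :=
  ∀ x, Cm W x → (∀ g ∈ h.B, ad C.s.π g x = x) → (∀ p ∈ h'.P, ad C.t.π p x = x) →
    ∃ z : ℂ, x = z • (1 : K →L[ℂ] K)

/-- **(COMM)** the translates of the calculus commute -/
def Comm {h' : R1 ρ' w'} (C : Cpl μ μ' W) (θ : POM h'.Z K) : Prop :=
  ∀ g F F', Bd F → Bd F' → θ.f F * ad C.s.π g (θ.f F') = ad C.s.π g (θ.f F') * θ.f F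

/-- **The output of rank one**, for one leg -/
structure Out (h : R1 ρ w) (h' : R1 ρ' w') (C : Cpl μ μ' W)
    (Φ : C(h'.Y, ℂ) →⋆ₐ[ℂ] (K →L[ℂ] K)) : Prop where
  cm : ∀ f, Cm W (Φ f)
  cov : Cov C.t.π Φ
  inv : ∀ p ∈ h.P, ∀ f, ad C.s.π p (Φ f) = Φ f
  uq : Uq h h' C Φ
  com : ∀ g f f', Φ f * ad C.s.π g (Φ f') = ad C.s.π g (Φ f') * Φ f
  tri : ∃ (g : Fin 3 → G) (f : Fin 3 → C(h'.Y, ℂ)), (∀ i, star (f i) = f i) ∧
    (∀ i j, i ≠ j → Disjoint (tsupport (f i)) (tsupport (f j))) ∧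
    ad C.s.π (g 0) (Φ (f 0)) * ad C.s.π (g 1) (Φ (f 1)) * ad C.s.π (g 2) (Φ (f 2)) ≠ 0

/-- the standing hypotheses of all the blocks -/
def All (p : ∀ {n n' : ℕ} {G G' K : Type} [Group G] [TopologicalSpace G] [MeasurableSpace G]
    [Group G'] [TopologicalSpace G'] [MeasurableSpace G'] [NormedAddCommGroup K]
    [InnerProductSpace ℂ K] [CompleteSpace K] {ρ : G →* SLn n} {w : Fin n → ℝ}
    {ρ' : G' →* SLn n'} {w' : Fin n' → ℝ} {μ : Measure G} {μ' : Measure G'}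
    {W : Set (K →L[ℂ] K)}, R1 ρ w → R1 ρ' w' → Cpl μ μ' W → Prop) : Prop :=
  ∀ {n n' : ℕ} {G G' K : Type} [Group G] [TopologicalSpace G] [IsTopologicalGroup G]
    [LocallyCompactSpace G] [SecondCountableTopology G] [T2Space G] [MeasurableSpace G]
    [BorelSpace G] [Group G'] [TopologicalSpace G'] [IsTopologicalGroup G']
    [LocallyCompactSpace G'] [SecondCountableTopology G'] [T2Space G'] [MeasurableSpace G']
    [BorelSpace G'] [NormedAddCommGroup K] [InnerProductSpace ℂ K] [CompleteSpace K]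
    {ρ : G →* SLn n} {w : Fin n → ℝ} {ρ' : G' →* SLn n'} {w' : Fin n' → ℝ} {μ : Measure G}
    {μ' : Measure G'} [μ.IsHaarMeasure] [μ'.IsHaarMeasure] {W : Set (K →L[ℂ] K)}
    (h : R1 ρ w) (h' : R1 ρ' w') (C : Cpl μ μ' W), 2 ≤ h.m2 → 2 ≤ h'.m2 → p h h' C

/-- block A (helpers 3, 90, 93) -/
def BA : Prop := All fun h h' C => FE h h' C

/-- block W (helper18) -/
def BW : Prop := All fun h h' C => h'.Q ≤ h.Q → FE h h' C → Wn h h' C

/-- block TH (helper7) -/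
def BTH : Prop := All fun h h' C => h.Q = h'.Q → Wn h h' C →
  ∃ θ, Th h h' C θ ∧ Uq h h' C fun f => θ.f fun z => f (h'.dir z)

/-- block ERG (helper44) -/
def BERG : Prop := All fun h h' C => h.Q = h'.Q → ∀ θ, Th h h' C θ → Erg h h' C

/-- block MAGIC and COMM (helper77) -/
def BCOM : Prop := All fun h h' C => ∀ θ θ', Th h h' C θ → Th h' h C.swap θ' → Erg h h' C →
  Comm C θ

/-- the result of rank one -/
def BOut : Prop := All fun h h' C => ∃ Φ, Out h h' C Φ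

end Vale.Agent.P092RS
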