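import Vale.Agent.P092RS.Defs
import Vale.Agent.P092RG.Vol
import Vale.Agent.P092CP.Cp

/-!
P092, rank one skeleton (helper26): the comparison of the dimensions and the assembly.
-/

set_option linter.all false

open scoped InnerProductSpace ENNReal NNReal
open Filter Topology MeasureTheory ContinuousLinearMap

namespace Vale.Agent.P092RS

open Vale.Agent.P092.H793.Re Vale.Agent.P092RG Vale.Agent.P092CP Vale.Agent.P092RD

section dim

variable {n n' : ℕ} {G G' K : Type} [Group G] [TopologicalSpace G] [IsTopologicalGroup G]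
  [LocallyCompactSpace G] [SecondCountableTopology G] [T2Space G] [MeasurableSpace G]
  [BorelSpace G] [Group G'] [TopologicalSpace G'] [IsTopologicalGroup G']
  [LocallyCompactSpace G'] [SecondCountableTopology G'] [T2Space G'] [MeasurableSpace G']
  [BorelSpace G'] [NormedAddCommGroup K] [InnerProductSpace ℂ K] [CompleteSpace K]
  {ρ : G →* SLn n} {w : Fin n → ℝ} {ρ' : G' →* SLn n'} {w' : Fin n' → ℝ} {μ : Measure G}
  {μ' : Measure G'} [μ.IsHaarMeasure] [μ'.IsHaarMeasure] {W : Set (K →L[ℂ] K)}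

theorem meas_ball (h : R1 ρ w) (R : ℝ) : MeasurableSet (ball h R) :=
  (isClosed_le h.continuous_rr continuous_const).measurableSet

theorem le_of_eo {x y : ℝ} (e : eo x ≤ eo y) : x ≤ y :=
  Real.exp_le_exp.1 ((ENNReal.ofReal_le_ofReal_iff (Real.exp_pos y).le).1 e)

theorem Tr_PP_le (C : Cpl μ μ' W) {A : Set G} {A' : Set G'} (hA : MeasurableSet A)
    (hA' : MeasurableSet A') : C.t.Tr (C.t.P A' * C.s.P A) ≤ μ' A' := by
  refine (C.Tr_mul_le (C.t.cm_P hA') (C.s.cm_P hA)).trans ?_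
  rw [C.t.Tr_P hA']
  refine mul_le_of_le_one_left' (pow_le_one₀ bot_le ?_)
  rw [← ofReal_norm_eq_enorm, ENNReal.ofReal_le_one]
  exact C.s.norm_P_le hA

/-- the window property bounds the dimension of the source -/
theorem Wn.Q_le {h : R1 ρ w} {h' : R1 ρ' w'} {C : Cpl μ μ' W} (hW : Wn h h' C) : h.Q ≤ h'.Q := by
  obtain ⟨R, hR⟩ := hW
  obtain ⟨c, hc⟩ := h'.ball_le μ'
  by_contra h0
  have h1 : (h'.Q : ℝ) + 1 ≤ h.Q := by exact_mod_cast not_le.1 h0
  obtain ⟨l, h2, h3, h4⟩ := (hR.and ((eventually_ge_atTop |R|).and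
    (eventually_gt_atTop (c + h'.Q * R + R)))).exists
  have h5 : 0 ≤ l + R := by linarith [neg_abs_le R]
  have h6 := le_of_eo (h2.trans ((Tr_PP_le C (meas_ball h l) (meas_ball h' _)).trans (hc _ h5)))
  have h7 : 0 ≤ l := (abs_nonneg R).trans h3
  nlinarith

end dim

/-- block AGR (helper77) -/
def BAGR : Prop := All fun h h' C => ∀ θ, Th h h' C θ → Comm C θ →
  (Uq h h' C fun f => θ.f fun z => f (h'.dir z)) → ∃ Φ, Out h h' C Φ

theorem Q_eq (hA : BA) (hW : BW) : All fun h h' _ => h.Q = h'.Q := by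
  intro n n' G G' K _ _ _ _ _ _ _ _ _ _ _ _ _ _ _ _ _ _ _ ρ w ρ' w' μ μ' _ _ W h h' C h1 h2
  rcases le_total h'.Q h.Q with e | e
  · exact le_antisymm (hW h h' C h1 h2 e (hA h h' C h1 h2)).Q_le e
  · exact le_antisymm e (hW h' h C.swap h2 h1 e (hA h' h C.swap h2 h1)).Q_le

/-- **The assembly of rank one.** -/
theorem bout (hA : BA) (hW : BW) (hT : BTH) (hE : BERG) (hC : BCOM) (hG : BAGR) : BOut := by
  intro n n' G G' K _ _ _ _ _ _ _ _ _ _ _ _ _ _ _ _ _ _ _ ρ w ρ' w' μ μ' _ _ W h h' C h1 h2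
  have e : h.Q = h'.Q := Q_eq hA hW h h' C h1 h2
  obtain ⟨θ, t1, u1⟩ := hT h h' C h1 h2 e (hW h h' C h1 h2 e.ge (hA h h' C h1 h2))
  obtain ⟨θ', t2, -⟩ := hT h' h C.swap h2 h1 e.symm
    (hW h' h C.swap h2 h1 e.le (hA h' h C.swap h2 h1))
  exact hG h h' C h1 h2 θ t1 (hC h h' C h1 h2 θ θ' t1 t2 (hE h h' C h1 h2 e θ t1)) u1

end Vale.Agent.P092RS
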