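import Vale.Agent.P092RS.Fin
import Vale.Agent.P092TH.R1

/-!
P092, rank one (helper26): the end.
-/

set_option linter.all false

namespace Vale.Agent.P092RS

open Vale.Agent.P092 Vale.Agent.P092.H793.Re Vale.Agent.P092RG Vale.Agent.P092GP

/-- **the result of rank one** -/
theorem out : BOut := bout_of P092TH.bth

theorem over_r1 {n : ℕ} {G : Type} [Group G] [TopologicalSpace G] [IsTopologicalGroup G]
    [LocallyCompactSpace G] [SecondCountableTopology G] [T2Space G] {ρ : G →* SLn n}
    {w : Fin n → ℝ} (h : R1 ρ w) (hT : UN.KazT G) : H678.OV.OverStmt G :=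
  P092EN.overStmt_of_bout P092CP.inst out h (ntr h hT)

theorem over_lp {k G : Type} [NontriviallyNormedField k] [Group G] [TopologicalSpace G]
    {L : LD k G} (H : L.LP) (ht : L.Gp = ⊤) (hz : Subgroup.center G = ⊥) (hT : UN.KazT G)
    (hr : L.R.r = 1) : H678.OV.OverStmt G := over_ls out ntr H ht hz hT hr

end Vale.Agent.P092RS
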