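import Vale.Agent.P092RL.Lev
import Vale.Agent.P092RL.Cell
import Vale.Agent.P092LM.Lim

/-!
P092, rank one (helper26): finite energy from the uniform bound and the system of tests.
-/

set_option linter.all false

open MeasureTheory

namespace Vale.Agent.P092RS

open Vale.Agent.P092.H793.Re Vale.Agent.P092RG Vale.Agent.P092CP Vale.Agent.P092RL
  Vale.Agent.P092RO Vale.Agent.P092LM Vale.Agent.P092UB

variable {n n' : ℕ} {G G' K : Type} [Group G] [TopologicalSpace G] [IsTopologicalGroup G]
  [LocallyCompactSpace G] [SecondCountableTopology G] [T2Space G] [MeasurableSpace G]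
  [BorelSpace G] [Group G'] [TopologicalSpace G'] [IsTopologicalGroup G']
  [LocallyCompactSpace G'] [SecondCountableTopology G'] [T2Space G'] [MeasurableSpace G']
  [BorelSpace G'] [NormedAddCommGroup K] [InnerProductSpace ℂ K] [CompleteSpace K]
  {ρ : G →* SLn n} {w : Fin n → ℝ} {ρ' : G' →* SLn n'} {w' : Fin n' → ℝ} {μ : Measure G}
  {μ' : Measure G'} [μ.IsHaarMeasure] [μ'.IsHaarMeasure] {W : Set (K →L[ℂ] K)}

theorem fe_of {h : R1 ρ w} {h' : R1 ρ' w'} {C : Cpl μ μ' W} (hU : UB C h h'.rr)
    (hA : A0 h' (mm h' μ') (TW h')) : FE h h' C :=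
  fe_of_few (continuous_TW' h' 0) measurable_fst (walls h' μ') (lim hU hA)

end Vale.Agent.P092RS
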