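import Vale.Agent.P092EN.R1
import Vale.Agent.P092CP.InstF
import Vale.Agent.P092RB.Ls
import Vale.Agent.P092GP.Flag
import Vale.Agent.P092NN.Na

/-!
P092, rank one (helper26): the core statement for the linear package of rank one.
-/

set_option linter.all false

namespace Vale.Agent.P092RS

open Vale.Agent.P092 Vale.Agent.P092.H793.Re Vale.Agent.P092RG Vale.Agent.P092GP
  Vale.Agent.P092GK

/-- block NT-R (helper32) -/
def NTR : Prop := ∀ {n : ℕ} {G : Type} [Group G] [TopologicalSpace G] [IsTopologicalGroup G]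
  [LocallyCompactSpace G] [SecondCountableTopology G] [T2Space G] {ρ : G →* SLn n}
  {w : Fin n → ℝ} (h : R1 ρ w), UN.KazT G → 2 ≤ h.m2

theorem over_ls (hO : BOut) (hN : NTR) {k G : Type} [NontriviallyNormedField k] [Group G]
    [TopologicalSpace G] {L : LD k G} (H : L.LP) (ht : L.Gp = ⊤) (hz : Subgroup.center G = ⊥)
    (hT : UN.KazT G) (hr : L.R.r = 1) : H678.OV.OverStmt G := by
  haveI := H.top
  haveI := H.t2
  haveI := H.lc
  haveI := H.sc
  haveI := H.prop
  by_cases hu : IsUltrametricDist k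
  · obtain ⟨N, τ, w, hp⟩ := H.pan
    have key : ∀ (r : ℕ) (F : FlD k G r) (s : Fin r → G) (τ : ℕ → Fin r), r = 1 → Fl F →
        Pan F s N τ w → False := by
      rintro r F s τ rfl hF hp
      exact P092NN.not_kazT hF hp hT
    exact (key _ _ _ _ hr H.fl hp).elim
  · obtain ⟨n, ρ, w, h⟩ := P092RB.lp_r1 H hu ht hz hr H.fl
    exact P092EN.overStmt_of_bout P092CP.inst hO h (hN h hT)

end Vale.Agent.P092RS
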