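import Vale.Agent.P092RS.Asm
import Vale.Agent.P092RS.Main
import Vale.Agent.P092RS.Ls
import Vale.Agent.P092UB.Ctr
import Vale.Agent.P092RK.Gap
import Vale.Agent.P092RQ.Main
import Vale.Agent.P092RW.Main
import Vale.Agent.P092RE.Erg
import Vale.Agent.P092RD.Com
import Vale.Agent.P092RD.AgrR
import Vale.Agent.P092RO.Main
import Vale.Agent.P092NT.Main

/-!
P092, rank one (helper26): the assembly.
-/

set_option linter.all false

open MeasureTheory

namespace Vale.Agent.P092RS

open Vale.Agent.P092.H793.Re Vale.Agent.P092RG Vale.Agent.P092CP Vale.Agent.P092RO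
  Vale.Agent.P092LM

/-- **block A** -/
theorem ba : BA := by
  intro n n' G G' K _ _ _ _ _ _ _ _ _ _ _ _ _ _ _ _ _ _ _ ρ w ρ' w' μ μ' _ _ W h h' C h1 h2
  exact fe_of (P092UB.ub (P092RK.gapm C h h1) h'.measurable_rr
    fun R => (h'.isCompact_ball R).measure_lt_top.ne) (a0 h' μ' (P092RQ.eq_all h' μ'))

theorem bout_of (hT : BTH) : BOut :=
  bout ba P092RW.bw hT P092RE.berg P092RD.bcom P092RD.bagr

theorem ntr : NTR := by
  intro n G _ _ _ _ _ _ ρ w h hT
  exact P092NT.two_le_m2 h hT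

end Vale.Agent.P092RS
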